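import Vale.Agent.P269.G1I.BAbs

/-!
# [DE] a function of the big phase space which vanishes on the small phase space
-/

namespace Vale.Agent.P269.G1.H440

open Finset.HasAntidiagonal (antidiagonal)

/-- **[DE]** a function of the big phase space which is a function of the point of the small
phase space vanishes if it vanishes on the small phase space. -/
theorem descend {n : ℕ} {K : Type*} [CommRing K] [Algebra ℚ K] {β : Type*} [Fintype β]
    (lev : Fin n → ℕ) (i0 : β → Fin n) (hi : ∀ b, lev (i0 b) = 0)
    (w : Fin n → β → MvPowerSeries (Fin n) K) (f : MvPowerSeries (Fin n) K)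
    (h : ∀ i, MvPowerSeries.pderiv K i f = ∑ b, w i b * MvPowerSeries.pderiv K (i0 b) f)
    (h0 : ∀ α : Fin n →₀ ℕ, (∀ i, 0 < lev i → α i = 0) → MvPowerSeries.coeff α f = 0) :
    f = 0 := by
  classical
  have hsum : ∀ (γ : Fin n →₀ ℕ) (i : Fin n),
      ∑ j, lev j * ((γ + Finsupp.single i 1 : Fin n →₀ ℕ) j) = ∑ j, lev j * γ j + lev i := by
    intro γ i
    simp only [Finsupp.add_apply, mul_add, Finset.sum_add_distrib]
    congr 1
    rw [Finset.sum_eq_single i]
    · simp
    · intro j _ hj
      rw [Finsupp.single_apply, if_neg (Ne.symm hj), mul_zero]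
    · simp
  have key : ∀ N : ℕ, ∀ α : Fin n →₀ ℕ, ∑ i, lev i * α i = N → MvPowerSeries.coeff α f = 0 := by
    intro N
    induction N using Nat.strong_induction_on with
    | _ N ih =>
      intro α hα
      by_cases hs : ∀ i, 0 < lev i → α i = 0
      · exact h0 α hs
      · push Not at hs
        obtain ⟨i, hl, hαi⟩ := hs
        have hle : Finsupp.single i 1 ≤ α := by
          rw [Finsupp.single_le_iff]
          exact Nat.one_le_iff_ne_zero.2 hαi
        obtain ⟨γ, rfl⟩ : ∃ γ : Fin n →₀ ℕ, α = γ + Finsupp.single i 1 :=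
          ⟨α - Finsupp.single i 1, (tsub_add_cancel_of_le hle).symm⟩
        rw [hsum] at hα
        have e1 := congrArg (MvPowerSeries.coeff γ) (h i)
        rw [MvPowerSeries.coeff_pderiv, map_sum] at e1
        have e2 : ∀ b, MvPowerSeries.coeff γ
            (w i b * MvPowerSeries.pderiv K (i0 b) f) = 0 := by
          intro b
          rw [MvPowerSeries.coeff_mul]
          refine Finset.sum_eq_zero fun p hp => ?_
          have hp' : p.1 + p.2 = γ := Finset.HasAntidiagonal.mem_antidiagonal.1 hp
          rw [MvPowerSeries.coeff_pderiv]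
          have hW := hsum p.2 (i0 b)
          rw [hi, add_zero] at hW
          have hW2 : ∑ j, lev j * p.2 j ≤ ∑ j, lev j * γ j := by
            refine Finset.sum_le_sum fun j _ => Nat.mul_le_mul_left _ ?_
            rw [← hp', Finsupp.add_apply]
            exact Nat.le_add_left _ _
          rw [ih (∑ j, lev j * p.2 j) (by omega) _ hW, zero_mul, mul_zero]
        rw [Finset.sum_eq_zero fun b _ => e2 b] at e1
        have h3 : ((γ i : K) + 1) = algebraMap ℚ K ((γ i : ℚ) + 1) := by simp
        have h4 : ((γ i : ℚ) + 1) ≠ 0 := by positivity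
        rw [h3, mul_comm, ← Algebra.smul_def] at e1
        have e3 := congrArg (fun z => ((γ i : ℚ) + 1)⁻¹ • z) e1
        simpa only [smul_smul, inv_mul_cancel₀ h4, one_smul, smul_zero] using e3
  ext α
  rw [map_zero]
  exact key _ α rfl

end Vale.Agent.P269.G1.H440
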