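import Vale.Agent.P269.G1I.T.H521_SrB
import Vale.Agent.P269.G1I.BSpec
import Vale.Agent.P269.G1I.H598.Cor

/-!
# Series of correlators on the big phase space: elementary rules
-/

namespace Vale.Agent.P269.G1.H440

open Finset.HasAntidiagonal (antidiagonal)
open Vale.Agent.P269.CI Vale.Agent.P269.G1

section gen

variable {n : ℕ} {K : Type*} [CommRing K] [Algebra ℚ K]

/-- the coefficients of a variable -/
def dlt (k : Fin n) (L : List (Fin n)) : K := if L = [k] then 1 else 0

theorem sym_dlt (k : Fin n) : Sym (dlt (K := K) k) := by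
  intro L M h
  unfold dlt
  have : L = [k] ↔ M = [k] := by
    constructor
    · intro hL
      rw [hL] at h
      exact List.perm_singleton.1 h.symm
    · intro hM
      rw [hM] at h
      exact List.perm_singleton.1 h
  simp only [this]

theorem lst_eq_singleton (α : Fin n →₀ ℕ) (k : Fin n) :
    lst α = [k] ↔ α = Finsupp.single k 1 := by
  constructor
  · intro h
    ext j
    rw [← H598.count_lst α j, h, Finsupp.single_apply, List.count_singleton]
    by_cases hk : k = j
    · simp [hk]
    · simp [hk]
  · intro h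
    have h1 : (lst (0 + Finsupp.single k 1)).Perm (k :: lst (0 : Fin n →₀ ℕ)) := H598.lst_add 0 k
    rw [zero_add, H598.lst_zero] at h1
    rw [h]
    exact List.perm_singleton.1 h1

theorem toSer_dlt (k : Fin n) : toSer (dlt (K := K) k) = MvPowerSeries.X k := by
  classical
  ext α
  rw [H598.coeff_toSer, MvPowerSeries.coeff_X]
  unfold dlt
  simp only [lst_eq_singleton]
  by_cases h : α = Finsupp.single k 1
  · rw [if_pos h, h]
    have : ∏ i, ((Finsupp.single k 1 : Fin n →₀ ℕ) i).factorial = 1 := by
      apply Finset.prod_eq_one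
      intro i _
      rw [Finsupp.single_apply]
      split <;> rfl
    rw [this]
    simp
  · rw [if_neg h, smul_zero]

theorem shf_zero (L : List (Fin n)) : ∀ B : List (Fin n) → K, shf L (fun _ => 0) B = 0 := by
  induction L with
  | nil => intro B; simp [shf]
  | cons i L ih => intro B; rw [shf, ih, ih, add_zero]

theorem shf_nil (L : List (Fin n)) : ∀ B : List (Fin n) → K,
    shf L (fun M => if M = [] then 1 else 0) B = B L := by
  induction L with
  | nil => intro B; simp [shf]
  | cons i L ih =>
    intro B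
    rw [shf, ih]
    have : (fun M : List (Fin n) => if i :: M = [] then (1 : K) else 0) = fun _ => 0 := by
      funext M
      simp
    rw [this, shf_zero, zero_add]

theorem shf_dlt (k : Fin n) (L : List (Fin n)) : ∀ B : List (Fin n) → K,
    shf L (dlt k) B = ∑ j : Fin L.length, if L.get j = k then B (L.eraseIdx j) else 0 := by
  induction L with
  | nil => intro B; simp [shf, dlt]
  | cons i L ih =>
    intro B
    rw [shf, ih]
    have h1 : (∑ j : Fin (i :: L).length,
        if (i :: L).get j = k then B ((i :: L).eraseIdx j) else 0) =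
        (if i = k then B L else 0) +
          ∑ j : Fin L.length, if L.get j = k then B (i :: L.eraseIdx j) else 0 :=
      Fin.sum_univ_succ (n := L.length) _
    rw [h1]
    congr 1
    by_cases h : i = k
    · rw [if_pos h]
      have : (fun M : List (Fin n) => dlt (K := K) k (i :: M)) =
          fun M => if M = [] then 1 else 0 := by
        funext M
        simp [dlt, h]
      rw [this, shf_nil]
    · rw [if_neg h]
      have : (fun M : List (Fin n) => dlt (K := K) k (i :: M)) = fun _ => 0 := by
        funext M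
        simp [dlt, h]
      rw [this, shf_zero]

theorem toSer_zero' : toSer (fun _ : List (Fin n) => (0 : K)) = 0 := by
  ext α
  rw [H598.coeff_toSer, smul_zero]
  rfl

theorem toSer_sum {σ : Type*} (s : Finset σ) (A : σ → List (Fin n) → K) :
    toSer (fun L => ∑ x ∈ s, A x L) = ∑ x ∈ s, toSer (A x) := by
  classical
  induction s using Finset.induction_on with
  | empty => simpa using toSer_zero'
  | insert a s ha ih =>
    rw [Finset.sum_insert ha, ← ih, ← H598.toSer_add']
    congr 1
    funext L
    exact Finset.sum_insert ha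

/-- the series of a sum over the entries of a list (helper980) -/
theorem toSer_entries (g : Fin n → List (Fin n) → K) (hg : ∀ k, Sym (g k)) :
    toSer (fun L => ∑ j : Fin L.length, g (L.get j) (L.eraseIdx j)) =
      ∑ k, MvPowerSeries.X k * toSer (g k) := by
  have h1 : ∀ k, MvPowerSeries.X k * toSer (g k) = toSer (fun L => shf L (dlt k) (g k)) := by
    intro k
    rw [← toSer_dlt, H598.toSer_mul _ _ (sym_dlt k) (hg k)]
  simp only [h1]
  rw [← toSer_sum]
  congr 1
  funext L
  simp only [shf_dlt]
  rw [Finset.sum_comm]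
  refine Finset.sum_congr rfl fun j _ => ?_
  rw [Finset.sum_ite_eq]
  simp

end gen

variable {X : CompleteIntersection} {n : ℕ} (E : Fam X n) {F : ℕ → ℕ → List (Ins X) → ℂ}

theorem sr_congr {A B : ℕ → List (Ins X) → ℂ}
    (h : ∀ d (L : List (Fin n)), A d (L.map E.ins) = B d (L.map E.ins)) :
    sr E A = sr E B := by
  unfold sr
  congr 1
  funext L
  ext d
  simpa using h d L

theorem sr_add (A B : ℕ → List (Ins X) → ℂ) :
    sr E (fun d L => A d L + B d L) = sr E A + sr E B := by
  unfold sr
  rw [← H598.toSer_add']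
  congr 1

theorem sr_zero : sr E (fun _ _ => 0) = 0 := by
  funext α
  change ((∏ i, (α i).factorial : ℕ) : ℚ)⁻¹ • (PowerSeries.mk fun _ => (0 : ℂ)) = 0
  have : (PowerSeries.mk fun _ => (0 : ℂ)) = 0 := by
    ext; simp
  rw [this, smul_zero]

theorem smul_RB (c : ℂ) (f : RB n) : c • f = cb n c * f := by
  ext m d
  rw [cb, MvPowerSeries.coeff_C_mul, PowerSeries.coeff_C_mul]
  rfl

theorem cb_mul (a b : ℂ) : cb n (a * b) = cb n a * cb n b := by
  simp only [cb, map_mul]

theorem cb_add (a b : ℂ) : cb n (a + b) = cb n a + cb n b := by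
  simp only [cb, map_add]

theorem cb_zero : cb n 0 = 0 := by
  simp only [cb, map_zero]

theorem cb_one : cb n 1 = 1 := by
  simp only [cb, map_one]

theorem cb_sum {ι : Type*} (s : Finset ι) (f : ι → ℂ) :
    cb n (∑ i ∈ s, f i) = ∑ i ∈ s, cb n (f i) := by
  simp only [cb, map_sum]

theorem sr_smul (c : ℂ) (A : ℕ → List (Ins X) → ℂ) :
    sr E (fun d L => c * A d L) = c • sr E A := by
  funext α
  change ((∏ i, (α i).factorial : ℕ) : ℚ)⁻¹ • (PowerSeries.mk fun d => c * A d _) =
    c • (((∏ i, (α i).factorial : ℕ) : ℚ)⁻¹ • (PowerSeries.mk fun d => A d _))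
  rw [smul_comm]
  congr 1

theorem sr_sum {σ : Type*} (s : Finset σ) (A : σ → ℕ → List (Ins X) → ℂ) :
    sr E (fun d L => ∑ x ∈ s, A x d L) = ∑ x ∈ s, sr E (A x) := by
  classical
  induction s using Finset.induction_on with
  | empty => simpa using sr_zero E
  | insert a s ha ih =>
    rw [Finset.sum_insert ha, ← ih, ← sr_add]
    exact sr_congr E fun d L => Finset.sum_insert ha

/-- the constant series -/
theorem sr_const (c : ℂ) :
    sr E (fun d L => if d = 0 ∧ L = [] then c else 0) = cb n c := by
  unfold cb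
  ext α m
  change (PowerSeries.coeff m) ((((∏ i, (α i).factorial : ℕ) : ℚ)⁻¹ •
    (PowerSeries.mk fun d => if d = 0 ∧ (lst α).map E.ins = [] then c else 0) :
      PowerSeries ℂ)) = _
  rw [MvPowerSeries.coeff_C]
  by_cases hα : α = 0
  · subst hα
    rw [if_pos rfl, H598.lst_zero]
    simp [PowerSeries.coeff_C]
  · rw [if_neg hα]
    have : lst α ≠ [] := by
      intro h
      apply hα
      ext j
      have := H598.count_lst α j
      rw [h] at this
      simpa using this.symm
    simp [this]

theorem par_ins (i : Fin n) : par X (E.ins i).1 = false := rfl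

theorem isAmb_ins (L : List (Fin n)) : ∀ x ∈ L.map E.ins, IsAmb X x := by
  intro x hx
  obtain ⟨i, _, rfl⟩ := List.mem_map.1 hx
  exact ⟨_, rfl⟩

theorem srcor_swap (hF : IsGW X F) (g : ℕ) (P Q : List (Ins X)) (x y : Ins X)
    (h : par X x.1 = false ∨ par X y.1 = false) :
    sr E (cor F g (P ++ x :: y :: Q)) = sr E (cor F g (P ++ y :: x :: Q)) := by
  refine sr_congr E fun d L => ?_
  have h1 := hF.symm g d P (Q ++ L.map E.ins) x y
  have h2 : sgn (par X x.1) (par X y.1) = 1 := by
    rcases h with h | h <;> simp [sgn, h]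
  rw [h2, one_mul] at h1
  simpa [cor] using h1

/-- a single primitive insertion gives zero -/
theorem srcor_prim (h1 : IsGenusOne F) (g : ℕ) (v : X.Prim) (m : ℕ) (P : List (Ins X))
    (hP : ∀ x ∈ P, IsAmb X x) : sr E (cor F g ((Sum.inr v, m) :: P)) = 0 := by
  rw [← sr_zero E]
  refine sr_congr E fun d L => ?_
  refine h1.mono1 g d v m (P ++ L.map E.ins) ?_
  intro x hx
  rcases List.mem_append.1 hx with h | h
  · exact hP x h
  · exact isAmb_ins E L x h

/-- topological recursion in genus zero -/
theorem trr_sr (hF : IsGW X F) (a : Ix X) (m : ℕ) (x y : Ins X) :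
    sr E (cor F 0 [(a, m + 1), x, y]) = ∑ α, ∑ β, pairingInv X α β •
      (sr E (cor F 0 [(β, 0), x, y]) * sr E (cor F 0 [(a, m), (α, 0)])) := by
  have h1 : ∀ α β, pairingInv X α β •
      (sr E (cor F 0 [(β, 0), x, y]) * sr E (cor F 0 [(a, m), (α, 0)])) =
      sr E (fun d L => pairingInv X α β *
        mulS (cor F 0 [(β, 0), x, y]) (cor F 0 [(a, m), (α, 0)]) d L) := by
    intro α β
    rw [← sr_mulS E _ _ (symF_cor E hF 0 _) (symF_cor E hF 0 _), sr_smul]
  simp only [h1]
  simp only [← sr_sum]
  refine sr_congr E fun d L => ?_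
  exact hF.trr d a m x y (L.map E.ins)

theorem SB_succ_apply (h1 : IsGenusOne F) (m : ℕ) (c b : Fin (X.dim + 1)) :
    (SB E h1 (m + 1)).1 c b = ∑ a : Fin (X.dim + 1),
      pairingInv X (Sum.inl a) (Sum.inl c) • VB E F (Sum.inl b, m) (Sum.inl a, 0) := rfl

theorem SB_zero_apply (h1 : IsGenusOne F) (c b : Fin (X.dim + 1)) :
    (SB E h1 0).1 c b = if c = b then 1 else 0 := Matrix.one_apply

/-- three-point functions with one descendant -/
theorem trrS_big (hF : IsGW X F) (h1 : IsGenusOne F) (b : Fin (X.dim + 1)) (m : ℕ) (u v : Ins X) :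
    sr E (cor F 0 [(Sum.inl b, m), u, v]) = ∑ i : Fin (X.dim + 1),
      (SB E h1 m).1 i b * sr E (cor F 0 [hpow X i, u, v]) := by
  cases m with
  | zero =>
    simp only [SB_zero_apply]
    rw [Finset.sum_eq_single b]
    · rw [if_pos rfl, one_mul]
      rfl
    · intro j _ hj
      rw [if_neg hj, zero_mul]
    · simp
  | succ m =>
    rw [trr_sr E hF (Sum.inl b) m u v, Fintype.sum_sum_type]
    have h2 : ∑ w : X.Prim, ∑ β, pairingInv X (Sum.inr w) β •
        (sr E (cor F 0 [(β, 0), u, v]) * sr E (cor F 0 [(Sum.inl b, m), (Sum.inr w, 0)])) = 0 := by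
      refine Finset.sum_eq_zero fun w _ => Finset.sum_eq_zero fun β _ => ?_
      have e1 := srcor_swap E hF 0 [] [] (Sum.inl b, m) (Sum.inr w, 0) (Or.inl rfl)
      simp only [List.nil_append] at e1
      rw [e1, srcor_prim E h1 0 w 0 [(Sum.inl b, m)] (by simp [IsAmb]), mul_zero, smul_zero]
    rw [h2, add_zero]
    have h3 : ∀ c : Fin (X.dim + 1), ∑ β, pairingInv X (Sum.inl c) β •
        (sr E (cor F 0 [(β, 0), u, v]) * sr E (cor F 0 [(Sum.inl b, m), (Sum.inl c, 0)])) =
        ∑ i : Fin (X.dim + 1), (pairingInv X (Sum.inl c) (Sum.inl i) •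
          VB E F (Sum.inl b, m) (Sum.inl c, 0)) * sr E (cor F 0 [hpow X i, u, v]) := by
      intro c
      rw [Fintype.sum_sum_type]
      have h4 : ∑ w : X.Prim, pairingInv X (Sum.inl c) (Sum.inr w) •
        (sr E (cor F 0 [(Sum.inr w, 0), u, v]) *
          sr E (cor F 0 [(Sum.inl b, m), (Sum.inl c, 0)])) = 0 := by
        refine Finset.sum_eq_zero fun w _ => ?_
        have : pairingInv X (Sum.inl c) (Sum.inr w) = 0 := rfl
        rw [this, zero_smul]
      rw [h4, add_zero]
      refine Finset.sum_congr rfl fun i _ => ?_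
      rw [smul_mul_assoc, mul_comm (VB E F (Sum.inl b, m) (Sum.inl c, 0))]
      rfl
    rw [Finset.sum_congr rfl fun c _ => h3 c, Finset.sum_comm]
    refine Finset.sum_congr rfl fun i _ => ?_
    rw [SB_succ_apply, Finset.sum_mul]

end Vale.Agent.P269.G1.H440
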